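import Crest.Agent.X212.Glue52.Atl

/-!
# X212 / Glue52, part 4 (helper52): more local diffeomorphisms

products, open subsets, the inverse function theorem (vector spaces and manifolds), `Circle.exp`,
polar coordinates.
-/

set_option autoImplicit false
set_option linter.unusedSectionVars false
set_option linter.style.haveILetI false

open Set Filter Topology Function TopologicalSpace
open scoped ContDiff Manifold

noncomputable section

namespace Crest.Agent.X212.Glue52

section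

variable {E : Type*} [NormedAddCommGroup E] [NormedSpace ℝ E] {H : Type*} [TopologicalSpace H]
  {I : ModelWithCorners ℝ E H} {M : Type*} [TopologicalSpace M] [ChartedSpace H M]
  {E' : Type*} [NormedAddCommGroup E'] [NormedSpace ℝ E'] {H' : Type*} [TopologicalSpace H']
  {J : ModelWithCorners ℝ E' H'} {N : Type*} [TopologicalSpace N] [ChartedSpace H' N]
  {F : Type*} [NormedAddCommGroup F] [NormedSpace ℝ F] {G : Type*} [TopologicalSpace G]
  {I' : ModelWithCorners ℝ F G} {P : Type*} [TopologicalSpace P] [ChartedSpace G P]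
  {F' : Type*} [NormedAddCommGroup F'] [NormedSpace ℝ F'] {G' : Type*} [TopologicalSpace G']
  {J' : ModelWithCorners ℝ F' G'} {Q : Type*} [TopologicalSpace Q] [ChartedSpace G' Q]

/-- product of partial diffeomorphisms -/
def pdProd (φ : PartialDiffeomorph I J M N ∞) (ψ : PartialDiffeomorph I' J' P Q ∞) :
    PartialDiffeomorph (I.prod I') (J.prod J') (M × P) (N × Q) ∞ :=
  pdOf (φ.toOpenPartialHomeomorph.prod ψ.toOpenPartialHomeomorph)
    (φ.contMDiffOn_toFun.prodMap ψ.contMDiffOn_toFun)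
    (φ.contMDiffOn_invFun.prodMap ψ.contMDiffOn_invFun)

theorem ld_prodMap_at {f : M → N} {g : P → Q} {x : M} {y : P} (hf : IsLocalDiffeomorphAt I J ∞ f x)
    (hg : IsLocalDiffeomorphAt I' J' ∞ g y) :
    IsLocalDiffeomorphAt (I.prod I') (J.prod J') ∞ (Prod.map f g) (x, y) := by
  obtain ⟨φ, hx, hφ⟩ := hf
  obtain ⟨ψ, hy, hψ⟩ := hg
  exact ⟨pdProd φ ψ, ⟨hx, hy⟩, fun z hz => Prod.ext (hφ hz.1) (hψ hz.2)⟩

theorem ld_prodMap {f : M → N} {g : P → Q} (hf : IsLocalDiffeomorph I J ∞ f)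
    (hg : IsLocalDiffeomorph I' J' ∞ g) :
    IsLocalDiffeomorph (I.prod I') (J.prod J') ∞ (Prod.map f g) :=
  fun z => ld_prodMap_at (hf z.1) (hg z.2)

theorem ld_swap : IsLocalDiffeomorph (I.prod I') (I'.prod I) ∞ (Prod.swap : M × P → P × M) :=
  (Diffeomorph.prodComm I I' M P ∞).isLocalDiffeomorph

/-- the inclusion of an open subset -/
theorem ld_val (U : Opens M) : IsLocalDiffeomorph I I ∞ (Subtype.val : U → M) := by
  classical
  intro x
  refine ld_of_inverse (g := fun y => if h : y ∈ U then ⟨y, h⟩ else x) isOpen_univ U.isOpen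
    (mem_univ x) contMDiff_subtype_val.contMDiffOn (fun y hy => ?_) (fun z _ => z.2)
    (fun _ _ => mem_univ _) (fun z _ => dif_pos z.2)
    (fun z (hz : z ∈ U) => congrArg Subtype.val (dif_pos hz))
  refine ContMDiffAt.contMDiffWithinAt ((ContMDiffAt.subtypeVal_comp_iff U _ y).1 ?_)
  refine contMDiffAt_id.congr_of_eventuallyEq ?_
  filter_upwards [U.isOpen.mem_nhds hy] with z hz
  exact congrArg Subtype.val (dif_pos (show z ∈ U from hz))

/-- a map into an open subset -/
theorem ld_codRestrict {U : Opens N} {f : M → U} {x : M}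
    (h : IsLocalDiffeomorphAt I J ∞ (Subtype.val ∘ f) x) : IsLocalDiffeomorphAt I J ∞ f x :=
  ld_of_comp_left (ld_val U (f x))
    (IsInducing.subtypeVal.continuousAt_iff.2 h.contMDiffAt.continuousAt) h

/-- restriction to an open subset -/
theorem ld_restrict {U : Opens M} {f : M → N} {x : U} (h : IsLocalDiffeomorphAt I J ∞ f x) :
    IsLocalDiffeomorphAt I J ∞ (fun z : U => f z) x :=
  (ld_val U x).comp J N h

theorem ld_inclusion {U W : Opens M} (h : U ≤ W) :
    IsLocalDiffeomorph I I ∞ (Opens.inclusion h) := fun x => ld_codRestrict (ld_val U x)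

/-- a partial diffeomorphism restricted to an open subset of its source -/
theorem ld_pd_restrict (φ : PartialDiffeomorph I J M N ∞) (U : Opens M) (hU : (U : Set M) ⊆ φ.source) :
    IsLocalDiffeomorph I J ∞ (fun z : U => φ z) :=
  fun x => ld_restrict (φ.isLocalDiffeomorphAt _ _ _ (hU x.2))

/-- a bijective-on-opens local diffeomorphism: two-sided smooth inverse gives a diffeomorphism -/
def diffeoOf (f : M → N) (g : N → M) (hf : ContMDiff I J ∞ f) (hg : ContMDiff J I ∞ g)
    (l : ∀ x, g (f x) = x) (r : ∀ y, f (g y) = y) : M ≃ₘ^∞⟮I, J⟯ N :=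
  { toFun := f, invFun := g, left_inv := l, right_inv := r, contMDiff_toFun := hf,
    contMDiff_invFun := hg }

theorem ld_clm (L : E ≃L[ℝ] E') : IsLocalDiffeomorph 𝓘(ℝ, E) 𝓘(ℝ, E') ∞ L :=
  L.toDiffeomorph.isLocalDiffeomorph

/-- inverse function theorem, vector spaces -/
theorem ld_of_fderiv [CompleteSpace E] {f : E → E'} {s : Set E} (hs : IsOpen s) {a : E} (ha : a ∈ s)
    (hf : ContDiffOn ℝ ∞ f s) (L : E ≃L[ℝ] E') (hL : HasFDerivAt f (L : E →L[ℝ] E') a) :
    IsLocalDiffeomorphAt 𝓘(ℝ, E) 𝓘(ℝ, E') ∞ f a := by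
  have ca : ContDiffAt ℝ ∞ f a := hf.contDiffAt (hs.mem_nhds ha)
  set t : Set E := s ∩ fderiv ℝ f ⁻¹' range ((↑) : (E ≃L[ℝ] E') → E →L[ℝ] E') with ht
  have to' : IsOpen t := (hf.continuousOn_fderiv_of_isOpen hs (by simp)).isOpen_inter_preimage hs
    ContinuousLinearEquiv.isOpen
  set e := (ca.toOpenPartialHomeomorph f hL (by simp)).restrOpen t to' with he
  have ef : ⇑e = f := rfl
  refine ⟨pdOf e ?_ ?_, ⟨ca.mem_toOpenPartialHomeomorph_source hL (by simp), ha, L, hL.fderiv.symm⟩,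
    fun _ _ => rfl⟩
  · exact contMDiffOn_iff_contDiffOn.2 (hf.mono fun z hz => hz.2.1)
  · intro y hy
    obtain ⟨h1, L', h2⟩ := (e.map_target hy).2
    have c := hf.contDiffAt (hs.mem_nhds h1)
    refine (contMDiffAt_iff_contDiffAt.2 (e.contDiffAt_symm (f₀' := L') hy ?_ c)).contMDiffWithinAt
    rw [h2, ef]
    exact (c.differentiableAt (by simp)).hasFDerivAt

/-- inverse function theorem, manifolds -/
theorem ld_of_mfderiv [CompleteSpace E] [I.Boundaryless] [J.Boundaryless] [IsManifold I ∞ M]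
    [IsManifold J ∞ N] {f : M → N} {s : Set M} (hs : IsOpen s) {x : M} (hx : x ∈ s)
    (hf : ContMDiffOn I J ∞ f s) (L : E ≃L[ℝ] E')
    (hL : ∀ v : E, mfderiv I J f x v = L v) : IsLocalDiffeomorphAt I J ∞ f x := by
  set a := chE I x
  set b := chE J (f x)
  have xa : x ∈ a.source := mem_extChartAt_source (I := I) x
  have xb : f x ∈ b.source := mem_extChartAt_source (I := J) (f x)
  have cx : ContMDiffAt I J ∞ f x := hf.contMDiffAt (hs.mem_nhds hx)
  set t : Set M := s ∩ f ⁻¹' b.source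
  have to' : IsOpen t := hf.continuousOn.isOpen_inter_preimage hs b.open_source
  set u : Set E := a.target ∩ a.symm ⁻¹' t
  have uo : IsOpen u := a.contMDiffOn_invFun.continuousOn.isOpen_inter_preimage a.open_target to'
  have e : a.symm (a x) = x := a.left_inv xa
  have xu : a x ∈ u := ⟨a.map_source xa, by rw [mem_preimage, e]; exact ⟨hx, xb⟩⟩
  have sm : ContDiffOn ℝ ∞ (b ∘ f ∘ a.symm) u := contMDiffOn_iff_contDiffOn.1
    (b.contMDiffOn_toFun.comp (hf.comp (a.contMDiffOn_invFun.mono inter_subset_left)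
      fun z hz => hz.2.1) fun z hz => hz.2.2)
  have d : HasFDerivAt (b ∘ f ∘ a.symm) (L : E →L[ℝ] E') (a x) := by
    have h1 := (cx.mdifferentiableAt (by simp)).hasMFDerivAt.2
    rw [I.range_eq_univ, hasFDerivWithinAt_univ] at h1
    rw [show (L : E →L[ℝ] E') = mfderiv I J f x from ContinuousLinearMap.ext fun v => (hL v).symm]
    exact h1
  have h2 := ld_of_fderiv uo xu sm L d
  have h3 := (a.isLocalDiffeomorphAt _ _ _ xa).comp _ _ h2
  refine ld_of_comp_left (b.isLocalDiffeomorphAt _ _ _ xb) cx.continuousAt (ld_congr h3 ?_)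
  filter_upwards [a.open_source.mem_nhds xa] with z hz
  show b (f z) = b (f (a.symm (a z)))
  rw [show a.symm (a z) = z from a.left_inv hz]

/-- inverse function theorem, finite-dimensional: an injective differential suffices -/
theorem ld_of_injective_mfderiv [FiniteDimensional ℝ E] [FiniteDimensional ℝ E'] [I.Boundaryless]
    [J.Boundaryless] [IsManifold I ∞ M] [IsManifold J ∞ N]
    (hd : Module.finrank ℝ E = Module.finrank ℝ E') {f : M → N} {s : Set M} (hs : IsOpen s) {x : M}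
    (hx : x ∈ s) (hf : ContMDiffOn I J ∞ f s) (hi : Injective (mfderiv I J f x)) :
    IsLocalDiffeomorphAt I J ∞ f x := by
  haveI : CompleteSpace E := FiniteDimensional.complete ℝ E
  let D : E →L[ℝ] E' := mfderiv I J f x
  let L : E ≃ₗ[ℝ] E' := LinearMap.linearEquivOfInjective (D : E →ₗ[ℝ] E') hi hd
  exact ld_of_mfderiv hs hx hf L.toContinuousLinearEquiv fun _ => rfl

end

/-! ### the circle, polar coordinates -/

theorem contMDiff_circle_coe : ContMDiff (𝓡 1) 𝓘(ℝ, ℂ) ∞ (fun u : Circle => (u : ℂ)) :=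
  haveI : Fact (Module.finrank ℝ ℂ = 1 + 1) := ⟨Complex.finrank_real_complex⟩
  contMDiff_coe_sphere

/-- a map into the circle is smooth if it is smooth as a map into `ℂ` -/
theorem contMDiffAt_circle {E : Type*} [NormedAddCommGroup E] [NormedSpace ℝ E] {H : Type*}
    [TopologicalSpace H] {I : ModelWithCorners ℝ E H} {M : Type*} [TopologicalSpace M]
    [ChartedSpace H M] [IsManifold I ∞ M] {f : M → Circle} {s : Set M} (hs : IsOpen s) {x : M}
    (hx : x ∈ s) (h : ContMDiffOn I 𝓘(ℝ, ℂ) ∞ (fun z => (f z : ℂ)) s) :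
    ContMDiffAt I (𝓡 1) ∞ f x := by
  haveI : Fact (Module.finrank ℝ ℂ = 1 + 1) := ⟨Complex.finrank_real_complex⟩
  let U : Opens M := ⟨s, hs⟩
  have h1 : ContMDiff I 𝓘(ℝ, ℂ) ∞ (fun z : U => (f z : ℂ)) := fun z =>
    (h.contMDiffAt (hs.mem_nhds z.2)).comp z contMDiff_subtype_val.contMDiffAt
  have h2 : ContMDiff I (𝓡 1) ∞ (fun z : U => f z) := h1.codRestrict_sphere fun z => (f z).2
  exact contMDiffAt_of_comp (ld_val U ⟨x, hx⟩) (h2 _)

/-- the direction `z / ‖z‖` (junk value `1` at `0`) -/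
def dir (z : ℂ) : Circle :=
  if h : z = 0 then 1 else ⟨z / ‖z‖, mem_sphere_zero_iff_norm.2 <| by
    rw [norm_div, Complex.norm_real, norm_norm, div_self (norm_ne_zero_iff.2 h)]⟩

theorem coe_dir {z : ℂ} (h : z ≠ 0) : (dir z : ℂ) = z / ‖z‖ := by
  rw [dir, dif_neg h]

theorem norm_mul_dir (z : ℂ) : (‖z‖ : ℂ) * dir z = z := by
  by_cases h : z = 0
  · simp [h]
  · rw [coe_dir h, mul_div_cancel₀]
    exact_mod_cast norm_ne_zero_iff.2 h

theorem dir_mul {r : ℝ} (hr : 0 < r) (u : Circle) : dir (r * u) = u := by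
  have h : (r : ℂ) ≠ 0 := by exact_mod_cast hr.ne'
  apply Circle.ext
  rw [coe_dir (mul_ne_zero h u.coe_ne_zero), norm_mul, Circle.norm_coe, mul_one, Complex.norm_real,
    Real.norm_of_nonneg hr.le, mul_div_cancel_left₀ _ h]

theorem contDiffAt_norm_c {z : ℂ} (h : z ≠ 0) : ContDiffAt ℝ ∞ (fun w : ℂ => ‖w‖) z :=
  contDiffAt_norm ℝ h

theorem contMDiffAt_dir {z : ℂ} (h : z ≠ 0) : ContMDiffAt 𝓘(ℝ, ℂ) (𝓡 1) ∞ dir z := by
  refine contMDiffAt_circle isOpen_ne h fun w hw => ?_
  have h1 : ContDiffAt ℝ ∞ (fun w : ℂ => w / (‖w‖ : ℂ)) w :=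
    (((contDiffAt_norm_c hw).inv (norm_ne_zero_iff.2 hw)).smul contDiffAt_id).congr_of_eventuallyEq
      (Eventually.of_forall fun y => by simp [div_eq_inv_mul])
  exact (contMDiffAt_iff_contDiffAt.2 h1).contMDiffWithinAt.congr (fun y hy => coe_dir hy) (coe_dir hw)

/-- polar coordinates -/
def polar (a : Circle × ℝ) : ℂ := a.2 * a.1

theorem contMDiff_polar : ContMDiff ((𝓡 1).prod 𝓘(ℝ, ℝ)) 𝓘(ℝ, ℂ) ∞ polar :=
  (contDiff_mul (𝔸 := ℂ) (𝕜 := ℝ)).contMDiff.comp
    ((Complex.ofRealCLM.contDiff.contMDiff.comp contMDiff_snd).prodMk_space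
      (contMDiff_circle_coe.comp contMDiff_fst))

theorem ld_polar {a : Circle × ℝ} (h : 0 < a.2) :
    IsLocalDiffeomorphAt ((𝓡 1).prod 𝓘(ℝ, ℝ)) 𝓘(ℝ, ℂ) ∞ polar a := by
  refine ld_of_inverse (g := fun z => (dir z, ‖z‖)) (s := {a | 0 < a.2}) (t := {z | z ≠ 0})
    (isOpen_lt continuous_const continuous_snd) isOpen_ne h contMDiff_polar.contMDiffOn
    (fun z hz => ((contMDiffAt_dir hz).prodMk
      (contMDiffAt_iff_contDiffAt.2 (contDiffAt_norm_c hz))).contMDiffWithinAt)
    (fun b hb => mul_ne_zero (by exact_mod_cast (ne_of_gt hb)) b.1.coe_ne_zero)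
    (fun z hz => norm_pos_iff.2 hz) (fun b hb => Prod.ext (dir_mul hb _) ?_)
    (fun z _ => norm_mul_dir z)
  show ‖(b.2 : ℂ) * b.1‖ = b.2
  rw [norm_mul, Circle.norm_coe, mul_one, Complex.norm_real, Real.norm_of_nonneg (le_of_lt hb)]

theorem ld_circleExp : IsLocalDiffeomorph 𝓘(ℝ, ℝ) (𝓡 1) ∞ Circle.exp := by
  intro t
  refine ld_of_injective_mfderiv (by simp) isOpen_univ (mem_univ t) contMDiff_circleExp.contMDiffOn ?_
  have h1 : HasDerivAt (fun s : ℝ => ((Circle.exp s : Circle) : ℂ))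
      (Complex.exp (t * Complex.I) * Complex.I) t := by
    simp only [Circle.coe_exp]
    simpa using ((Complex.ofRealCLM.hasDerivAt (x := t)).mul_const Complex.I).cexp
  have h2 := mfderiv_comp t (contMDiff_circle_coe.mdifferentiableAt (x := Circle.exp t) (by simp))
    (ContMDiff.mdifferentiableAt (I := 𝓘(ℝ, ℝ)) (I' := 𝓡 1) (contMDiff_circleExp (m := ∞)) (x := t)
      (by simp))
  have h3 : Injective (mfderiv 𝓘(ℝ, ℝ) 𝓘(ℝ, ℂ) ((fun u : Circle => (u : ℂ)) ∘ Circle.exp) t) := by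
    rw [mfderiv_eq_fderiv, show ((fun u : Circle => (u : ℂ)) ∘ Circle.exp) =
      fun s : ℝ => ((Circle.exp s : Circle) : ℂ) from rfl, h1.hasFDerivAt.fderiv]
    intro a b e
    exact smul_left_injective ℝ (mul_ne_zero (Complex.exp_ne_zero _) Complex.I_ne_zero) e
  rw [h2] at h3
  exact Injective.of_comp h3

end Crest.Agent.X212.Glue52
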