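import Crest.Agent.X212.Glue52.Cov

/-!
# X212 / Glue52, part 3 (helper52): two pieces glued along a common open part; self-gluing

* `GD.ofMaps P k` : gluing data from compatible locally injective maps into a bare TYPE;
* `Two V I₁ I₂ K M₁ M₂ N` : `j₁ : N → M₁`, `j₂ : N → M₂` injective local diffeomorphisms;
  `T.M`, `T.inl`, `T.inr` (injective local diffeomorphisms), `inl_eq_inr`, `lift`, tests, `diffeo`,
  `t2Space` (two closed halves of `N`), `compactSpace`, `connectedSpace`, second countability.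
-/

set_option autoImplicit false
set_option linter.unusedSectionVars false
set_option linter.style.haveILetI false

open Set Filter Topology Function
open scoped ContDiff Manifold

noncomputable section

namespace Crest.Agent.X212.Glue52

variable {V : Type} [NormedAddCommGroup V] [NormedSpace ℝ V] {ι : Type}

/-- gluing data from compatible, locally injective maps into a bare type -/
def GD.ofMaps (P : ι → Pc V) {Z : Type} (k : ∀ i, (P i).M → Z)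
    (hc : ∀ i j, Compat (P i).I (P j).I (k i) (k j))
    (hi : ∀ i (p : (P i).M), ∃ s ∈ 𝓝 p, InjOn (k i) s) : GD V ι where
  P := P
  r := Setoid.ker fun a => k a.1 a.2
  etale i j p q e := by
    obtain ⟨φ, h1, h2, h3⟩ := hc i j p q e
    exact ⟨φ, h1, h2, fun z hz => (h3 z hz).symm⟩
  inj i p := by
    obtain ⟨s, hs, h⟩ := hi i p
    exact ⟨s, hs, fun z hz w hw e => h hz hw e⟩

theorem GD.ofMaps_inc {P : ι → Pc V} {Z : Type} {k : ∀ i, (P i).M → Z}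
    {hc : ∀ i j, Compat (P i).I (P j).I (k i) (k j)}
    {hi : ∀ i (p : (P i).M), ∃ s ∈ 𝓝 p, InjOn (k i) s} {i j : ι} {p : (P i).M} {q : (P j).M} :
    (GD.ofMaps P k hc hi).inc i p = (GD.ofMaps P k hc hi).inc j q ↔ k i p = k j q :=
  (GD.ofMaps P k hc hi).inc_eq_inc

section

variable {E₁ : Type} [NormedAddCommGroup E₁] [NormedSpace ℝ E₁] {H₁ : Type} [TopologicalSpace H₁]
  {E₂ : Type} [NormedAddCommGroup E₂] [NormedSpace ℝ E₂] {H₂ : Type} [TopologicalSpace H₂]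
  {E₀ : Type} [NormedAddCommGroup E₀] [NormedSpace ℝ E₀] {H₀ : Type} [TopologicalSpace H₀]

/-- the local transition defined by a common open part -/
theorem exists_pd {I₁ : ModelWithCorners ℝ E₁ H₁} {I₂ : ModelWithCorners ℝ E₂ H₂}
    {K : ModelWithCorners ℝ E₀ H₀} {M₁ : Type*} [TopologicalSpace M₁] [ChartedSpace H₁ M₁]
    {M₂ : Type*} [TopologicalSpace M₂] [ChartedSpace H₂ M₂] {N : Type*} [TopologicalSpace N]
    [ChartedSpace H₀ N] {j₁ : N → M₁} {j₂ : N → M₂} {n : N} (h₁ : IsLocalDiffeomorphAt K I₁ ∞ j₁ n)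
    (h₂ : IsLocalDiffeomorphAt K I₂ ∞ j₂ n) :
    ∃ φ : PartialDiffeomorph I₁ I₂ M₁ M₂ ∞, j₁ n ∈ φ.source ∧ φ (j₁ n) = j₂ n ∧
      ∀ z ∈ φ.source, ∃ m, j₁ m = z ∧ j₂ m = φ z := by
  obtain ⟨ψ, hn, hψ⟩ := h₂
  have e : h₁.localInverse (j₁ n) = n := h₁.localInverse_left_inv h₁.localInverse_mem_target
  refine ⟨h₁.localInverse.trans ψ, ⟨h₁.localInverse_mem_source, ?_⟩, ?_, fun z hz => ?_⟩
  · show h₁.localInverse (j₁ n) ∈ ψ.source
    rwa [e]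
  · show ψ (h₁.localInverse (j₁ n)) = _
    rw [e, hψ hn]
  · exact ⟨h₁.localInverse z, h₁.localInverse_right_inv hz.1, hψ hz.2⟩

/-- two manifolds with a common open part `N` -/
structure Two (V : Type) [NormedAddCommGroup V] [NormedSpace ℝ V] (I₁ : ModelWithCorners ℝ E₁ H₁)
    (I₂ : ModelWithCorners ℝ E₂ H₂) (K : ModelWithCorners ℝ E₀ H₀)
    (M₁ : Type) [TopologicalSpace M₁] [ChartedSpace H₁ M₁]
    (M₂ : Type) [TopologicalSpace M₂] [ChartedSpace H₂ M₂]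
    (N : Type) [TopologicalSpace N] [ChartedSpace H₀ N] where
  L₁ : E₁ ≃L[ℝ] V
  L₂ : E₂ ≃L[ℝ] V
  j₁ : N → M₁
  j₂ : N → M₂
  ld₁ : IsLocalDiffeomorph K I₁ ∞ j₁
  ld₂ : IsLocalDiffeomorph K I₂ ∞ j₂
  inj₁ : Injective j₁
  inj₂ : Injective j₂

namespace Two

variable {I₁ : ModelWithCorners ℝ E₁ H₁} {I₂ : ModelWithCorners ℝ E₂ H₂} {K : ModelWithCorners ℝ E₀ H₀}
  [I₁.Boundaryless] [I₂.Boundaryless]
  {M₁ : Type} [TopologicalSpace M₁] [ChartedSpace H₁ M₁] [IsManifold I₁ ∞ M₁]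
  {M₂ : Type} [TopologicalSpace M₂] [ChartedSpace H₂ M₂] [IsManifold I₂ ∞ M₂]
  {N : Type} [TopologicalSpace N] [ChartedSpace H₀ N] (T : Two V I₁ I₂ K M₁ M₂ N)

open Classical in
/-- the set-level normal form of a point of the first piece -/
def k₁ (p : M₁) : M₁ ⊕ M₂ := if h : ∃ n, T.j₁ n = p then .inr (T.j₂ h.choose) else .inl p

theorem k₁_j₁ (n : N) : T.k₁ (T.j₁ n) = .inr (T.j₂ n) := by
  have h : ∃ m, T.j₁ m = T.j₁ n := ⟨n, rfl⟩
  rw [k₁, dif_pos h, T.inj₁ h.choose_spec]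

theorem k₁_eq_inr {p : M₁} {q : M₂} : T.k₁ p = .inr q ↔ ∃ n, T.j₁ n = p ∧ T.j₂ n = q := by
  constructor
  · intro e
    by_cases h : ∃ n, T.j₁ n = p
    · obtain ⟨n, rfl⟩ := h
      rw [k₁_j₁] at e
      exact ⟨n, rfl, Sum.inr_injective e⟩
    · rw [k₁, dif_neg h] at e
      cases e
  · rintro ⟨n, rfl, rfl⟩
    exact T.k₁_j₁ n

theorem k₁_injective : Injective T.k₁ := by
  intro p p' e
  by_cases h : ∃ n, T.j₁ n = p'
  · obtain ⟨n, rfl⟩ := h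
    rw [k₁_j₁, k₁_eq_inr] at e
    obtain ⟨m, rfl, h⟩ := e
    rw [T.inj₂ h]
  · by_cases h' : ∃ n, T.j₁ n = p
    · rw [k₁, k₁, dif_pos h', dif_neg h] at e
      cases e
    · rw [k₁, k₁, dif_neg h', dif_neg h] at e
      exact Sum.inl_injective e

theorem compat₁₂ : Compat I₁ I₂ T.k₁ (Sum.inr : M₂ → M₁ ⊕ M₂) := by
  intro p q e
  obtain ⟨n, rfl, rfl⟩ := T.k₁_eq_inr.1 e
  obtain ⟨φ, h1, h2, h3⟩ := exists_pd (T.ld₁ n) (T.ld₂ n)
  exact ⟨φ, h1, h2, fun z hz => (T.k₁_eq_inr.2 (h3 z hz)).symm⟩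

/-- the two pieces -/
def pc : Bool → Pc V
  | true => Pc.of I₁ M₁ T.L₁
  | false => Pc.of I₂ M₂ T.L₂

/-- the set-level maps -/
def k : ∀ b, (T.pc b).M → M₁ ⊕ M₂
  | true => T.k₁
  | false => Sum.inr

/-- the gluing data -/
def gd : GD V Bool :=
  GD.ofMaps T.pc T.k
    (fun
      | true, true => compat_of_injective T.k₁_injective
      | true, false => T.compat₁₂
      | false, true => T.compat₁₂.symm
      | false, false => compat_of_injective Sum.inr_injective)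
    (fun
      | true, _ => ⟨univ, univ_mem, T.k₁_injective.injOn⟩
      | false, _ => ⟨univ, univ_mem, Sum.inr_injective.injOn⟩)

/-- the glued manifold -/
def M : Type := T.gd.M

instance : TopologicalSpace T.M := inferInstanceAs (TopologicalSpace T.gd.M)
instance : ChartedSpace V T.M := inferInstanceAs (ChartedSpace V T.gd.M)
instance : IsManifold 𝓘(ℝ, V) ∞ T.M := inferInstanceAs (IsManifold 𝓘(ℝ, V) ∞ T.gd.M)

/-- first inclusion -/
def inl (p : M₁) : T.M := T.gd.inc true p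

/-- second inclusion -/
def inr (q : M₂) : T.M := T.gd.inc false q

theorem inl_injective : Injective T.inl := fun _ _ e => T.k₁_injective (GD.ofMaps_inc.1 e)

theorem inr_injective : Injective T.inr := fun _ _ e => Sum.inr_injective (GD.ofMaps_inc.1 e)

theorem inl_eq_inr {p : M₁} {q : M₂} : T.inl p = T.inr q ↔ ∃ n, T.j₁ n = p ∧ T.j₂ n = q :=
  GD.ofMaps_inc.trans T.k₁_eq_inr

theorem inl_j₁ (n : N) : T.inl (T.j₁ n) = T.inr (T.j₂ n) := T.inl_eq_inr.2 ⟨n, rfl, rfl⟩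

theorem ld_inl : IsLocalDiffeomorph I₁ 𝓘(ℝ, V) ∞ T.inl := T.gd.ld true

theorem ld_inr : IsLocalDiffeomorph I₂ 𝓘(ℝ, V) ∞ T.inr := T.gd.ld false

theorem isOpenEmbedding_inl : IsOpenEmbedding T.inl := ld_isOpenEmbedding T.ld_inl T.inl_injective

theorem isOpenEmbedding_inr : IsOpenEmbedding T.inr := ld_isOpenEmbedding T.ld_inr T.inr_injective

theorem surj (x : T.M) : (∃ p, T.inl p = x) ∨ ∃ q, T.inr q = x := by
  obtain ⟨b, p, rfl⟩ := T.gd.surj x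
  cases b
  · exact Or.inr ⟨p, rfl⟩
  · exact Or.inl ⟨p, rfl⟩

@[elab_as_elim] theorem ind {Q : T.M → Prop} (h₁ : ∀ p, Q (T.inl p)) (h₂ : ∀ q, Q (T.inr q))
    (x : T.M) : Q x := by
  rcases T.surj x with ⟨p, rfl⟩ | ⟨q, rfl⟩
  exacts [h₁ p, h₂ q]

open Classical in
/-- maps out of the glued manifold -/
def lift {Z : Sort*} (g₁ : M₁ → Z) (g₂ : M₂ → Z) (x : T.M) : Z :=
  if h : ∃ q, T.inr q = x then g₂ h.choose else g₁ ((T.surj x).resolve_right h).choose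

@[simp] theorem lift_inr {Z : Sort*} (g₁ : M₁ → Z) (g₂ : M₂ → Z) (q : M₂) :
    T.lift g₁ g₂ (T.inr q) = g₂ q := by
  have h : ∃ q', T.inr q' = T.inr q := ⟨q, rfl⟩
  rw [lift, dif_pos h, T.inr_injective h.choose_spec]

theorem lift_inl {Z : Sort*} {g₁ : M₁ → Z} {g₂ : M₂ → Z} (h : ∀ n, g₁ (T.j₁ n) = g₂ (T.j₂ n))
    (p : M₁) : T.lift g₁ g₂ (T.inl p) = g₁ p := by
  by_cases h' : ∃ q, T.inr q = T.inl p
  · obtain ⟨q, e⟩ := h'
    obtain ⟨n, rfl, rfl⟩ := T.inl_eq_inr.1 e.symm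
    rw [inl_j₁, lift_inr, h]
  · rw [lift, dif_neg h', T.inl_injective ((T.surj (T.inl p)).resolve_right h').choose_spec]

theorem isOpen_iff {s : Set T.M} : IsOpen s ↔ IsOpen (T.inl ⁻¹' s) ∧ IsOpen (T.inr ⁻¹' s) :=
  T.gd.isOpen_iff.trans (Bool.forall_bool.trans and_comm)

theorem continuous_iff {Z : Type*} [TopologicalSpace Z] {g : T.M → Z} :
    Continuous g ↔ Continuous (g ∘ T.inl) ∧ Continuous (g ∘ T.inr) :=
  T.gd.continuous_iff.trans (Bool.forall_bool.trans and_comm)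

section Out

variable {E' : Type*} [NormedAddCommGroup E'] [NormedSpace ℝ E'] {H' : Type*} [TopologicalSpace H']
  {J : ModelWithCorners ℝ E' H'} {Z : Type*} [TopologicalSpace Z] [ChartedSpace H' Z]

theorem contMDiff_iff {g : T.M → Z} : ContMDiff 𝓘(ℝ, V) J ∞ g ↔
    ContMDiff I₁ J ∞ (g ∘ T.inl) ∧ ContMDiff I₂ J ∞ (g ∘ T.inr) :=
  T.gd.contMDiff_iff.trans (Bool.forall_bool.trans and_comm)

theorem ld_iff {g : T.M → Z} : IsLocalDiffeomorph 𝓘(ℝ, V) J ∞ g ↔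
    IsLocalDiffeomorph I₁ J ∞ (g ∘ T.inl) ∧ IsLocalDiffeomorph I₂ J ∞ (g ∘ T.inr) :=
  T.gd.ld_iff.trans (Bool.forall_bool.trans and_comm)

theorem contMDiff_lift {g₁ : M₁ → Z} {g₂ : M₂ → Z} (h : ∀ n, g₁ (T.j₁ n) = g₂ (T.j₂ n))
    (h₁ : ContMDiff I₁ J ∞ g₁) (h₂ : ContMDiff I₂ J ∞ g₂) : ContMDiff 𝓘(ℝ, V) J ∞ (T.lift g₁ g₂) :=
  T.contMDiff_iff.2 ⟨by rwa [show T.lift g₁ g₂ ∘ T.inl = g₁ from funext (T.lift_inl h)],
    by rwa [show T.lift g₁ g₂ ∘ T.inr = g₂ from funext (T.lift_inr g₁ g₂)]⟩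

theorem ld_lift {g₁ : M₁ → Z} {g₂ : M₂ → Z} (h : ∀ n, g₁ (T.j₁ n) = g₂ (T.j₂ n))
    (h₁ : IsLocalDiffeomorph I₁ J ∞ g₁) (h₂ : IsLocalDiffeomorph I₂ J ∞ g₂) :
    IsLocalDiffeomorph 𝓘(ℝ, V) J ∞ (T.lift g₁ g₂) :=
  T.ld_iff.2 ⟨by rwa [show T.lift g₁ g₂ ∘ T.inl = g₁ from funext (T.lift_inl h)],
    by rwa [show T.lift g₁ g₂ ∘ T.inr = g₂ from funext (T.lift_inr g₁ g₂)]⟩

/-- UNIQUENESS of the gluing -/
def diffeo (g₁ : M₁ → Z) (g₂ : M₂ → Z) (h₁ : IsLocalDiffeomorph I₁ J ∞ g₁)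
    (h₂ : IsLocalDiffeomorph I₂ J ∞ g₂) (i₁ : Injective g₁) (i₂ : Injective g₂)
    (hs : ∀ x, (∃ p, g₁ p = x) ∨ ∃ q, g₂ q = x)
    (h : ∀ p q, g₁ p = g₂ q ↔ ∃ n, T.j₁ n = p ∧ T.j₂ n = q) : T.M ≃ₘ^∞⟮𝓘(ℝ, V), J⟯ Z :=
  have h0 : ∀ n, g₁ (T.j₁ n) = g₂ (T.j₂ n) := fun n => (h _ _).2 ⟨n, rfl, rfl⟩
  IsLocalDiffeomorph.diffeomorphOfBijective (f := T.lift g₁ g₂) (T.ld_lift h0 h₁ h₂) (by
    refine ⟨fun x y => ?_, fun x => ?_⟩
    · refine T.ind (fun p => ?_) (fun p => ?_) x <;> refine T.ind (fun q => ?_) (fun q => ?_) y <;>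
        simp only [T.lift_inl h0, lift_inr] <;> intro e
      · rw [i₁ e]
      · exact T.inl_eq_inr.2 ((h _ _).1 e)
      · exact (T.inl_eq_inr.2 ((h _ _).1 e.symm)).symm
      · rw [i₂ e]
    · rcases hs x with ⟨p, rfl⟩ | ⟨q, rfl⟩
      exacts [⟨T.inl p, T.lift_inl h0 p⟩, ⟨T.inr q, T.lift_inr _ _ q⟩])

@[simp] theorem diffeo_inl {g₁ : M₁ → Z} {g₂ : M₂ → Z} {h₁ : IsLocalDiffeomorph I₁ J ∞ g₁}
    {h₂ : IsLocalDiffeomorph I₂ J ∞ g₂} {i₁ : Injective g₁} {i₂ : Injective g₂}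
    {hs : ∀ x, (∃ p, g₁ p = x) ∨ ∃ q, g₂ q = x}
    {h : ∀ p q, g₁ p = g₂ q ↔ ∃ n, T.j₁ n = p ∧ T.j₂ n = q} (p : M₁) :
    T.diffeo g₁ g₂ h₁ h₂ i₁ i₂ hs h (T.inl p) = g₁ p :=
  T.lift_inl (fun n => (h _ _).2 ⟨n, rfl, rfl⟩) p

@[simp] theorem diffeo_inr {g₁ : M₁ → Z} {g₂ : M₂ → Z} {h₁ : IsLocalDiffeomorph I₁ J ∞ g₁}
    {h₂ : IsLocalDiffeomorph I₂ J ∞ g₂} {i₁ : Injective g₁} {i₂ : Injective g₂}
    {hs : ∀ x, (∃ p, g₁ p = x) ∨ ∃ q, g₂ q = x}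
    {h : ∀ p q, g₁ p = g₂ q ↔ ∃ n, T.j₁ n = p ∧ T.j₂ n = q} (q : M₂) :
    T.diffeo g₁ g₂ h₁ h₂ i₁ i₂ hs h (T.inr q) = g₂ q :=
  T.lift_inr g₁ g₂ q

end Out

end Two

end

/-- the graph over a closed image is closed -/
theorem isClosed_pair {N M₁ M₂ : Type*} [TopologicalSpace N] [TopologicalSpace M₁] [TopologicalSpace M₂]
    [T2Space M₂] {j₁ : N → M₁} {j₂ : N → M₂} (h₁ : IsEmbedding j₁) (h₂ : Continuous j₂) {A : Set N}
    (hA : IsClosed (j₁ '' A)) : IsClosed ((fun n => (j₁ n, j₂ n)) '' A) := by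
  rw [isClosed_iff_clusterPt]
  rintro ⟨p, q⟩ hc
  rw [ClusterPt, ← map_principal] at hc
  set F : Filter N := comap (fun n => (j₁ n, j₂ n)) (𝓝 (p, q)) ⊓ 𝓟 A with hF
  have hne : F.NeBot := by
    rw [← Filter.map_neBot_iff (fun n => (j₁ n, j₂ n)), hF, inf_comm, Filter.push_pull, inf_comm]
    exact hc
  have t : Tendsto (fun n => (j₁ n, j₂ n)) F (𝓝 (p, q)) := tendsto_comap.mono_left inf_le_left
  have hFA : ∀ᶠ n in F, n ∈ A := mem_inf_of_right (mem_principal_self A)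
  obtain ⟨n, hn, rfl⟩ : p ∈ j₁ '' A :=
    hA.mem_of_tendsto (continuous_fst.continuousAt.tendsto.comp t)
      (hFA.mono fun n hn => mem_image_of_mem _ hn)
  have t1 : Tendsto id F (𝓝 n) :=
    h₁.isInducing.tendsto_nhds_iff.2 (continuous_fst.continuousAt.tendsto.comp t)
  have e : j₂ n = q := tendsto_nhds_unique (h₂.continuousAt.tendsto.comp t1)
    (continuous_snd.continuousAt.tendsto.comp t)
  exact ⟨n, hn, by rw [← e]⟩

namespace Two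

variable {E₁ : Type} [NormedAddCommGroup E₁] [NormedSpace ℝ E₁] {H₁ : Type} [TopologicalSpace H₁]
  {E₂ : Type} [NormedAddCommGroup E₂] [NormedSpace ℝ E₂] {H₂ : Type} [TopologicalSpace H₂]
  {E₀ : Type} [NormedAddCommGroup E₀] [NormedSpace ℝ E₀] {H₀ : Type} [TopologicalSpace H₀]
  {I₁ : ModelWithCorners ℝ E₁ H₁} {I₂ : ModelWithCorners ℝ E₂ H₂} {K : ModelWithCorners ℝ E₀ H₀}
  [I₁.Boundaryless] [I₂.Boundaryless]
  {M₁ : Type} [TopologicalSpace M₁] [ChartedSpace H₁ M₁] [IsManifold I₁ ∞ M₁]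
  {M₂ : Type} [TopologicalSpace M₂] [ChartedSpace H₂ M₂] [IsManifold I₂ ∞ M₂]
  {N : Type} [TopologicalSpace N] [ChartedSpace H₀ N] (T : Two V I₁ I₂ K M₁ M₂ N)

theorem isOpenEmbedding_j₁ : IsOpenEmbedding T.j₁ := ld_isOpenEmbedding T.ld₁ T.inj₁

theorem isOpenEmbedding_j₂ : IsOpenEmbedding T.j₂ := ld_isOpenEmbedding T.ld₂ T.inj₂

/-- Hausdorff if the graph of the identification is closed -/
theorem t2Space_of_isClosed [T2Space M₁] [T2Space M₂]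
    (h : IsClosed (range fun n => (T.j₁ n, T.j₂ n))) : T2Space T.M := by
  have h' : IsClosed {x : M₁ × M₂ | T.inl x.1 = T.inr x.2} := by
    convert h using 1
    ext ⟨p, q⟩
    simp only [mem_ofPred_eq, inl_eq_inr, mem_range, Prod.mk.injEq]
  have a₁ : {x : M₁ × M₁ | T.gd.r ⟨true, x.1⟩ ⟨true, x.2⟩} = diagonal M₁ :=
    Set.ext fun _ => T.gd.inc_eq_inc.symm.trans T.inl_injective.eq_iff
  have a₂ : {x : M₁ × M₂ | T.gd.r ⟨true, x.1⟩ ⟨false, x.2⟩} = {x | T.inl x.1 = T.inr x.2} :=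
    Set.ext fun _ => T.gd.inc_eq_inc.symm
  have a₃ : {x : M₂ × M₁ | T.gd.r ⟨false, x.1⟩ ⟨true, x.2⟩} =
      Prod.swap ⁻¹' {x : M₁ × M₂ | T.inl x.1 = T.inr x.2} :=
    Set.ext fun _ => T.gd.inc_eq_inc.symm.trans eq_comm
  have a₄ : {x : M₂ × M₂ | T.gd.r ⟨false, x.1⟩ ⟨false, x.2⟩} = diagonal M₂ :=
    Set.ext fun _ => T.gd.inc_eq_inc.symm.trans T.inr_injective.eq_iff
  exact T.gd.t2Space fun
    | true, true => (a₁ ▸ isClosed_diagonal :)
    | true, false => (a₂ ▸ h' :)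
    | false, true => (a₃ ▸ h'.preimage continuous_swap :)
    | false, false => (a₄ ▸ isClosed_diagonal :)

/-- Hausdorff if `N = A ∪ B` with `j₁ A` closed in `M₁` and `j₂ B` closed in `M₂` (the two halves of a neck) -/
theorem t2Space [T2Space M₁] [T2Space M₂] {A B : Set N} (hAB : A ∪ B = univ)
    (hA : IsClosed (T.j₁ '' A)) (hB : IsClosed (T.j₂ '' B)) : T2Space T.M := by
  apply T.t2Space_of_isClosed
  rw [← image_univ, ← hAB, image_union]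
  refine (isClosed_pair T.isOpenEmbedding_j₁.isEmbedding T.isOpenEmbedding_j₂.continuous hA).union ?_
  convert (isClosed_pair T.isOpenEmbedding_j₂.isEmbedding T.isOpenEmbedding_j₁.continuous
    hB).preimage continuous_swap using 1
  ext ⟨p, q⟩
  simp only [mem_image, Prod.mk.injEq, mem_preimage, Prod.swap_prod_mk, and_comm]

instance [SecondCountableTopology M₁] [SecondCountableTopology M₂] : SecondCountableTopology T.M :=
  haveI : ∀ b, SecondCountableTopology (T.gd.P b).M := fun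
    | true => inferInstanceAs (SecondCountableTopology M₁)
    | false => inferInstanceAs (SecondCountableTopology M₂)
  T.gd.secondCountable

theorem compactSpace {K₁ : Set M₁} {K₂ : Set M₂} (h₁ : IsCompact K₁) (h₂ : IsCompact K₂)
    (c₁ : ∀ p, p ∈ K₁ ∨ ∃ n, T.j₁ n = p ∧ T.j₂ n ∈ K₂)
    (c₂ : ∀ q, q ∈ K₂ ∨ ∃ n, T.j₂ n = q ∧ T.j₁ n ∈ K₁) : CompactSpace T.M := by
  refine ⟨((h₁.image T.isOpenEmbedding_inl.continuous).union
    (h₂.image T.isOpenEmbedding_inr.continuous)).of_isClosed_subset isClosed_univ fun x _ => ?_⟩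
  refine T.ind (fun p => ?_) (fun q => ?_) x
  · rcases c₁ p with h | ⟨n, rfl, h⟩
    exacts [Or.inl ⟨p, h, rfl⟩, Or.inr ⟨_, h, (T.inl_j₁ n).symm⟩]
  · rcases c₂ q with h | ⟨n, rfl, h⟩
    exacts [Or.inr ⟨q, h, rfl⟩, Or.inl ⟨_, h, T.inl_j₁ n⟩]

theorem range_union : range T.inl ∪ range T.inr = univ := eq_univ_of_forall T.surj

theorem connectedSpace [ConnectedSpace M₁] [ConnectedSpace M₂] [Nonempty N] : ConnectedSpace T.M := by
  obtain ⟨n⟩ := ‹Nonempty N›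
  rw [connectedSpace_iff_univ, ← T.range_union]
  exact (isConnected_range T.isOpenEmbedding_inl.continuous).union
    ⟨T.inl (T.j₁ n), ⟨_, rfl⟩, ⟨_, (T.inl_j₁ n).symm⟩⟩
    (isConnected_range T.isOpenEmbedding_inr.continuous)

theorem range_inter : range T.inl ∩ range T.inr = range (T.inl ∘ T.j₁) := by
  ext x
  constructor
  · rintro ⟨⟨p, rfl⟩, q, e⟩
    obtain ⟨n, rfl, -⟩ := T.inl_eq_inr.1 e.symm
    exact ⟨n, rfl⟩
  · rintro ⟨n, rfl⟩
    exact ⟨⟨_, rfl⟩, _, (T.inl_j₁ n).symm⟩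

end Two

end Crest.Agent.X212.Glue52
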