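import Crest.Agent.X212.Glue52.Atl

/-!
# X212 / Glue52, part 2 (helper52): smooth structures from coverings by manifolds; quotients

* `Pc V`   : a bundled boundaryless manifold with ANY model, modelled linearly on `V`;
* `Cov V X ι` : pieces `P i` and compatible local homeomorphisms `f i : P i → X` covering a GIVEN space `X`;
  `C.cs`, `C.mf`, `C.ld i` (each `f i` is a local diffeomorphism);
* `GD V ι` : pieces and an étale, locally injective equivalence relation on their disjoint union;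
  `G.M` the glued manifold (instances), `G.inc i`, `G.ld i`, `G.lift`, tests on pieces,
  `T2` / second countable / compact / connected criteria.
-/

set_option autoImplicit false
set_option linter.unusedSectionVars false
set_option linter.style.haveILetI false

open Set Filter Topology Function
open scoped ContDiff Manifold

noncomputable section

namespace Crest.Agent.X212.Glue52

/-- a bundled boundaryless smooth manifold with its own model, and a linear identification of the model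
vector space with `V` -/
structure Pc (V : Type) [NormedAddCommGroup V] [NormedSpace ℝ V] : Type 1 where
  E : Type
  [nE : NormedAddCommGroup E]
  [sE : NormedSpace ℝ E]
  H : Type
  [tH : TopologicalSpace H]
  I : ModelWithCorners ℝ E H
  [bI : I.Boundaryless]
  M : Type
  [tM : TopologicalSpace M]
  [cM : ChartedSpace H M]
  [mM : IsManifold I ∞ M]
  L : E ≃L[ℝ] V

attribute [instance] Pc.nE Pc.sE Pc.tH Pc.bI Pc.tM Pc.cM Pc.mM

/-- the piece of a manifold -/
abbrev Pc.of {V : Type} [NormedAddCommGroup V] [NormedSpace ℝ V] {E : Type} [NormedAddCommGroup E]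
    [NormedSpace ℝ E] {H : Type} [TopologicalSpace H] (I : ModelWithCorners ℝ E H) [I.Boundaryless]
    (M : Type) [TopologicalSpace M] [ChartedSpace H M] [IsManifold I ∞ M] (L : E ≃L[ℝ] V) : Pc V :=
  { E := E, H := H, I := I, M := M, L := L }

/-- the linear identification given by the dimension -/
def linE (n : ℕ) (E : Type) [NormedAddCommGroup E] [NormedSpace ℝ E] [FiniteDimensional ℝ E]
    (h : Module.finrank ℝ E = n) : E ≃L[ℝ] EuclideanSpace ℝ (Fin n) :=
  ContinuousLinearEquiv.ofFinrankEq (by rw [h, finrank_euclideanSpace_fin])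

variable {V : Type} [NormedAddCommGroup V] [NormedSpace ℝ V] {ι : Type}

/-- a covering of a given space by compatible local homeomorphisms from manifolds -/
structure Cov (V : Type) [NormedAddCommGroup V] [NormedSpace ℝ V] (X : Type) [TopologicalSpace X]
    (ι : Type) : Type 1 where
  P : ι → Pc V
  f : ∀ i, (P i).M → X
  loc : ∀ i, IsLocalHomeomorph (f i)
  surj : ∀ x, ∃ i p, f i p = x
  compat : ∀ i j, Compat (P i).I (P j).I (f i) (f j)

namespace Cov

variable {X : Type} [TopologicalSpace X] (C : Cov V X ι)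

/-- the atlas -/
def atl : Atl V X (Σ i, (C.P i).M) where
  e a := chF (C.P a.1).I (C.P a.1).L (C.loc a.1) a.2
  cover x := by
    obtain ⟨i, p, rfl⟩ := C.surj x
    exact ⟨⟨i, p⟩, mem_chF _ _ _⟩
  sm a b := (C.compat a.1 b.1).contDiffOn_chF _ _ _ _ _ _

/-- the charted space -/
@[reducible] def cs : ChartedSpace V X := C.atl.cs

theorem mf : letI := C.cs; IsManifold 𝓘(ℝ, V) ∞ X := C.atl.mf

theorem ld (i : ι) : letI := C.cs; IsLocalDiffeomorph (C.P i).I 𝓘(ℝ, V) ∞ (C.f i) := fun p =>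
  C.atl.ld_of_chart (C.loc i).continuous.continuousAt ⟨i, p⟩ (mem_chF _ _ _)
    ((C.compat i i).ld_chF _ (C.loc i) p (mem_chF _ _ _))

end Cov

section Test

variable {E : ι → Type*} [∀ i, NormedAddCommGroup (E i)] [∀ i, NormedSpace ℝ (E i)] {H : ι → Type*}
  [∀ i, TopologicalSpace (H i)] {I : ∀ i, ModelWithCorners ℝ (E i) (H i)} {M : ι → Type*}
  [∀ i, TopologicalSpace (M i)] [∀ i, ChartedSpace (H i) (M i)]
  {E' : Type*} [NormedAddCommGroup E'] [NormedSpace ℝ E'] {H' : Type*} [TopologicalSpace H']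
  {J : ModelWithCorners ℝ E' H'} {N : Type*} [TopologicalSpace N] [ChartedSpace H' N]
  {E'' : Type*} [NormedAddCommGroup E''] [NormedSpace ℝ E''] {H'' : Type*} [TopologicalSpace H'']
  {K : ModelWithCorners ℝ E'' H''} {P : Type*} [TopologicalSpace P] [ChartedSpace H'' P]

theorem contMDiff_of_cover {f : ∀ i, M i → N} (hf : ∀ i, IsLocalDiffeomorph (I i) J ∞ (f i))
    (hs : ∀ x, ∃ i p, f i p = x) {g : N → P} (h : ∀ i, ContMDiff (I i) K ∞ (g ∘ f i)) :
    ContMDiff J K ∞ g := fun x => by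
  obtain ⟨i, p, rfl⟩ := hs x
  exact contMDiffAt_of_comp (hf i p) (h i p)

theorem ld_of_cover {f : ∀ i, M i → N} (hf : ∀ i, IsLocalDiffeomorph (I i) J ∞ (f i))
    (hs : ∀ x, ∃ i p, f i p = x) {g : N → P} (h : ∀ i, IsLocalDiffeomorph (I i) K ∞ (g ∘ f i)) :
    IsLocalDiffeomorph J K ∞ g := fun x => by
  obtain ⟨i, p, rfl⟩ := hs x
  exact ld_of_comp (hf i p) (h i p)

end Test

/-- gluing data: pieces and an étale, locally injective equivalence relation on their disjoint union -/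
structure GD (V : Type) [NormedAddCommGroup V] [NormedSpace ℝ V] (ι : Type) : Type 1 where
  P : ι → Pc V
  r : Setoid (Σ i, (P i).M)
  etale : ∀ i j (p : (P i).M) (q : (P j).M), r ⟨i, p⟩ ⟨j, q⟩ →
    ∃ φ : PartialDiffeomorph (P i).I (P j).I (P i).M (P j).M ∞,
      p ∈ φ.source ∧ φ p = q ∧ ∀ z ∈ φ.source, r ⟨i, z⟩ ⟨j, φ z⟩
  inj : ∀ i (p : (P i).M), ∃ s ∈ 𝓝 p, ∀ z ∈ s, ∀ w ∈ s, r ⟨i, z⟩ ⟨i, w⟩ → z = w

namespace GD

variable (G : GD V ι)

/-- the glued manifold -/
def M : Type := Quotient G.r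

instance : TopologicalSpace G.M := inferInstanceAs (TopologicalSpace (Quotient G.r))

/-- the quotient map -/
def proj (x : Σ i, (G.P i).M) : G.M := Quotient.mk G.r x

/-- the map of the `i`-th piece -/
def inc (i : ι) (p : (G.P i).M) : G.M := G.proj ⟨i, p⟩

theorem inc_eq_inc {i j : ι} {p : (G.P i).M} {q : (G.P j).M} :
    G.inc i p = G.inc j q ↔ G.r ⟨i, p⟩ ⟨j, q⟩ := Quotient.eq

theorem surj (x : G.M) : ∃ i p, G.inc i p = x := by
  obtain ⟨⟨i, p⟩, rfl⟩ := Quotient.mk_surjective (s := G.r) x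
  exact ⟨i, p, rfl⟩

theorem continuous_proj : Continuous G.proj := continuous_quotient_mk'

theorem continuous_inc (i : ι) : Continuous (G.inc i) := G.continuous_proj.comp continuous_sigmaMk

theorem compat (i j : ι) : Compat (G.P i).I (G.P j).I (G.inc i) (G.inc j) := fun p q e => by
  obtain ⟨φ, h1, h2, h3⟩ := G.etale i j p q (G.inc_eq_inc.1 e)
  exact ⟨φ, h1, h2, fun z hz => (G.inc_eq_inc.2 (h3 z hz)).symm⟩

theorem isOpen_iff {s : Set G.M} : IsOpen s ↔ ∀ i, IsOpen (G.inc i ⁻¹' s) := by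
  have hq : IsQuotientMap G.proj := isQuotientMap_quotient_mk'
  rw [← hq.isOpen_preimage, isOpen_sigma_iff]
  rfl

theorem isOpenMap_inc (i : ι) : IsOpenMap (G.inc i) := by
  intro W hW
  rw [G.isOpen_iff]
  intro j
  rw [isOpen_iff_mem_nhds]
  rintro q ⟨p, hp, e⟩
  obtain ⟨φ, h1, h2, h3⟩ := G.compat j i q p e.symm
  have c : ContinuousAt φ q := φ.contMDiffOn_toFun.continuousOn.continuousAt (φ.open_source.mem_nhds h1)
  filter_upwards [φ.open_source.mem_nhds h1, c.eventually (hW.mem_nhds (h2 ▸ hp))] with z z1 z2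
  exact ⟨φ z, z2, h3 z z1⟩

theorem isOpenQuotientMap_proj : IsOpenQuotientMap G.proj := by
  refine ⟨Quotient.mk_surjective, G.continuous_proj, isOpenMap_sigma.2 fun i => G.isOpenMap_inc i⟩

theorem loc (i : ι) : IsLocalHomeomorph (G.inc i) := by
  rw [isLocalHomeomorph_iff_isOpenEmbedding_restrict]
  intro p
  obtain ⟨s, hs, h⟩ := G.inj i p
  refine ⟨interior s, interior_mem_nhds.2 hs, IsOpenEmbedding.of_continuous_injective_isOpenMap
    ((G.continuous_inc i).comp continuous_subtype_val) (fun z w e => Subtype.ext ?_)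
    ((G.isOpenMap_inc i).comp isOpen_interior.isOpenMap_subtype_val)⟩
  exact h _ (interior_subset z.2) _ (interior_subset w.2) (G.inc_eq_inc.1 e)

/-- the covering of the glued space by its pieces -/
def cov : Cov V G.M ι := ⟨G.P, G.inc, G.loc, G.surj, G.compat⟩

instance : ChartedSpace V G.M := G.cov.cs

instance : IsManifold 𝓘(ℝ, V) ∞ G.M := G.cov.mf

/-- the pieces map by local diffeomorphisms -/
theorem ld (i : ι) : IsLocalDiffeomorph (G.P i).I 𝓘(ℝ, V) ∞ (G.inc i) := G.cov.ld i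

theorem contMDiff_inc (i : ι) : ContMDiff (G.P i).I 𝓘(ℝ, V) ∞ (G.inc i) := (G.ld i).contMDiff

theorem isOpenEmbedding_inc {i : ι} (h : ∀ z w, G.r ⟨i, z⟩ ⟨i, w⟩ → z = w) :
    IsOpenEmbedding (G.inc i) :=
  (G.loc i).isOpenEmbedding_of_injective fun z w e => h z w (G.inc_eq_inc.1 e)

/-- maps out of the glued manifold -/
def lift {Z : Sort*} (g : ∀ i, (G.P i).M → Z)
    (h : ∀ i j p q, G.r ⟨i, p⟩ ⟨j, q⟩ → g i p = g j q) : G.M → Z :=
  Quotient.lift (s := G.r) (fun a => g a.1 a.2) fun a b e => h a.1 b.1 a.2 b.2 e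

@[simp] theorem lift_inc {Z : Sort*} (g : ∀ i, (G.P i).M → Z)
    (h : ∀ i j p q, G.r ⟨i, p⟩ ⟨j, q⟩ → g i p = g j q) (i : ι) (p : (G.P i).M) :
    G.lift g h (G.inc i p) = g i p := rfl

theorem continuous_iff {Z : Type*} [TopologicalSpace Z] {g : G.M → Z} :
    Continuous g ↔ ∀ i, Continuous (g ∘ G.inc i) := by
  rw [← G.isOpenQuotientMap_proj.continuous_comp_iff, continuous_sigma_iff]
  rfl

section Out

variable {E' : Type*} [NormedAddCommGroup E'] [NormedSpace ℝ E'] {H' : Type*} [TopologicalSpace H']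
  {J : ModelWithCorners ℝ E' H'} {N : Type*} [TopologicalSpace N] [ChartedSpace H' N]

theorem contMDiff_iff {g : G.M → N} :
    ContMDiff 𝓘(ℝ, V) J ∞ g ↔ ∀ i, ContMDiff (G.P i).I J ∞ (g ∘ G.inc i) :=
  ⟨fun h i => h.comp (G.contMDiff_inc i), contMDiff_of_cover G.ld G.surj⟩

theorem ld_iff {g : G.M → N} :
    IsLocalDiffeomorph 𝓘(ℝ, V) J ∞ g ↔ ∀ i, IsLocalDiffeomorph (G.P i).I J ∞ (g ∘ G.inc i) :=
  ⟨fun h i => ld_comp h (G.ld i), ld_of_cover G.ld G.surj⟩

/-- UNIQUENESS: a manifold covered by local diffeomorphisms from the pieces with the same relation is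
diffeomorphic to the glued manifold -/
def diffeo (g : ∀ i, (G.P i).M → N) (hg : ∀ i, IsLocalDiffeomorph (G.P i).I J ∞ (g i))
    (hs : ∀ x, ∃ i p, g i p = x) (h : ∀ i j p q, G.r ⟨i, p⟩ ⟨j, q⟩ ↔ g i p = g j q) :
    G.M ≃ₘ^∞⟮𝓘(ℝ, V), J⟯ N :=
  IsLocalDiffeomorph.diffeomorphOfBijective
    (f := G.lift g fun i j p q e => (h i j p q).1 e) (G.ld_iff.2 hg) (by
      refine ⟨fun x y e => ?_, fun x => ?_⟩
      · obtain ⟨i, p, rfl⟩ := G.surj x
        obtain ⟨j, q, rfl⟩ := G.surj y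
        exact G.inc_eq_inc.2 ((h i j p q).2 e)
      · obtain ⟨i, p, rfl⟩ := hs x
        exact ⟨G.inc i p, rfl⟩)

@[simp] theorem diffeo_inc (g : ∀ i, (G.P i).M → N) (hg : ∀ i, IsLocalDiffeomorph (G.P i).I J ∞ (g i))
    (hs : ∀ x, ∃ i p, g i p = x) (h : ∀ i j p q, G.r ⟨i, p⟩ ⟨j, q⟩ ↔ g i p = g j q) (i : ι)
    (p : (G.P i).M) : G.diffeo g hg hs h (G.inc i p) = g i p := rfl

end Out

/-- Hausdorff iff the relation is closed, piece by piece -/
theorem t2Space (h : ∀ i j, IsClosed {x : (G.P i).M × (G.P j).M | G.r ⟨i, x.1⟩ ⟨j, x.2⟩}) :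
    T2Space G.M := by
  refine ⟨fun x y hxy => ?_⟩
  obtain ⟨i, p, rfl⟩ := G.surj x
  obtain ⟨j, q, rfl⟩ := G.surj y
  have h1 : {x : (G.P i).M × (G.P j).M | G.r ⟨i, x.1⟩ ⟨j, x.2⟩}ᶜ ∈ 𝓝 (p, q) :=
    (h i j).isOpen_compl.mem_nhds fun e => hxy (G.inc_eq_inc.2 e)
  obtain ⟨s, t, so, ps, to', qt, hst⟩ := mem_nhds_prod_iff'.1 h1
  refine ⟨G.inc i '' s, G.inc j '' t, G.isOpenMap_inc i s so, G.isOpenMap_inc j t to', ⟨p, ps, rfl⟩,
    ⟨q, qt, rfl⟩, disjoint_left.2 ?_⟩
  rintro _ ⟨a, ha, rfl⟩ ⟨b, hb, e⟩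
  exact hst (mk_mem_prod ha hb) (G.inc_eq_inc.1 e.symm)

theorem secondCountable [Countable ι] [∀ i, SecondCountableTopology (G.P i).M] :
    SecondCountableTopology G.M :=
  G.isOpenQuotientMap_proj.isQuotientMap.secondCountableTopology G.isOpenQuotientMap_proj.isOpenMap

theorem compactSpace [Finite ι] (K : ∀ i, Set (G.P i).M) (hK : ∀ i, IsCompact (K i))
    (h : ∀ i p, ∃ j, ∃ q ∈ K j, G.r ⟨i, p⟩ ⟨j, q⟩) : CompactSpace G.M := by
  refine ⟨(isCompact_iUnion fun j => (hK j).image (G.continuous_inc j)).of_isClosed_subset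
    isClosed_univ fun x _ => ?_⟩
  obtain ⟨i, p, rfl⟩ := G.surj x
  obtain ⟨j, q, hq, e⟩ := h i p
  exact mem_iUnion.2 ⟨j, q, hq, (G.inc_eq_inc.2 e).symm⟩

/-- connected pieces all meeting one piece give a connected manifold -/
theorem connectedSpace [∀ i, ConnectedSpace (G.P i).M] (i₀ : ι)
    (h : ∀ i, ∃ p q, G.r ⟨i, p⟩ ⟨i₀, q⟩) : ConnectedSpace G.M := by
  have hc : ∀ i, IsConnected (range (G.inc i)) := fun i => isConnected_range (G.continuous_inc i)
  obtain ⟨x₀, hx₀⟩ := (hc i₀).nonempty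
  rw [connectedSpace_iff_univ]
  refine ⟨⟨x₀, trivial⟩, isPreconnected_of_forall x₀ fun y _ => ?_⟩
  obtain ⟨i, p, rfl⟩ := G.surj y
  obtain ⟨a, b, e⟩ := h i
  exact ⟨range (G.inc i) ∪ range (G.inc i₀), subset_univ _, Or.inr hx₀, Or.inl ⟨p, rfl⟩,
    (hc i).isPreconnected.union (G.inc i a) ⟨a, rfl⟩ ⟨b, (G.inc_eq_inc.2 e).symm⟩
      (hc i₀).isPreconnected⟩

end GD

end Crest.Agent.X212.Glue52
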