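import Mathlib

/-!
# X212 / Glue52, part 1 (helper52): atlases, charts with values in a fixed space, local diffeomorphisms

* `chL I L x` : the chart at `x` of a boundaryless manifold, with values in `V` (`L : E ≃L V`);
* `Atl V X`   : an atlas on a topological space `X`; `A.cs`, `A.mf` the manifold structure;
* `Compat I J f g` : two maps into one space differ locally by partial diffeomorphisms;
* `chF hf I L p` : the chart of `X` at `f p` defined by a local homeomorphism `f : M → X`;
* API for `IsLocalDiffeomorph` : smoothness / local diffeomorphisms are tested after composing with it.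
-/

set_option autoImplicit false
set_option linter.unusedSectionVars false
set_option linter.style.haveILetI false

open Set Filter Topology Function
open scoped ContDiff Manifold

noncomputable section

namespace Crest.Agent.X212.Glue52

section LD

variable {E : Type*} [NormedAddCommGroup E] [NormedSpace ℝ E] {H : Type*} [TopologicalSpace H]
  {I : ModelWithCorners ℝ E H} {M : Type*} [TopologicalSpace M] [ChartedSpace H M]
  {E' : Type*} [NormedAddCommGroup E'] [NormedSpace ℝ E'] {H' : Type*} [TopologicalSpace H']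
  {J : ModelWithCorners ℝ E' H'} {N : Type*} [TopologicalSpace N] [ChartedSpace H' N]
  {E'' : Type*} [NormedAddCommGroup E''] [NormedSpace ℝ E''] {H'' : Type*} [TopologicalSpace H'']
  {K : ModelWithCorners ℝ E'' H''} {P : Type*} [TopologicalSpace P] [ChartedSpace H'' P]

/-- restriction of a partial diffeomorphism to an open set -/
def pdRestr (φ : PartialDiffeomorph I J M N ∞) (s : Set M) (hs : IsOpen s) :
    PartialDiffeomorph I J M N ∞ where
  toPartialEquiv := (φ.toOpenPartialHomeomorph.restrOpen s hs).toPartialEquiv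
  open_source := (φ.toOpenPartialHomeomorph.restrOpen s hs).open_source
  open_target := (φ.toOpenPartialHomeomorph.restrOpen s hs).open_target
  contMDiffOn_toFun := φ.contMDiffOn_toFun.mono inter_subset_left
  contMDiffOn_invFun := φ.contMDiffOn_invFun.mono inter_subset_left

@[simp] theorem pdRestr_source (φ : PartialDiffeomorph I J M N ∞) (s : Set M) (hs : IsOpen s) :
    (pdRestr φ s hs).source = φ.source ∩ s := rfl

@[simp] theorem pdRestr_apply (φ : PartialDiffeomorph I J M N ∞) (s : Set M) (hs : IsOpen s) (x : M) :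
    (pdRestr φ s hs) x = φ x := rfl

/-- an open partial homeomorphism that is smooth both ways -/
def pdOf (e : OpenPartialHomeomorph M N) (h : ContMDiffOn I J ∞ e e.source)
    (h' : ContMDiffOn J I ∞ e.symm e.target) : PartialDiffeomorph I J M N ∞ where
  toPartialEquiv := e.toPartialEquiv
  open_source := e.open_source
  open_target := e.open_target
  contMDiffOn_toFun := h
  contMDiffOn_invFun := h'

/-- the identity -/
def pdRefl (I : ModelWithCorners ℝ E H) (M : Type*) [TopologicalSpace M] [ChartedSpace H M] :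
    PartialDiffeomorph I I M M ∞ :=
  pdOf (OpenPartialHomeomorph.refl M) contMDiffOn_id contMDiffOn_id

theorem ld_congr {f g : M → N} {x : M} (h : IsLocalDiffeomorphAt I J ∞ f x) (e : g =ᶠ[𝓝 x] f) :
    IsLocalDiffeomorphAt I J ∞ g x := by
  obtain ⟨φ, hx, hφ⟩ := h
  obtain ⟨s, hs, so, xs⟩ := eventually_nhds_iff.1 e
  exact ⟨pdRestr φ s so, ⟨hx, xs⟩, fun y hy => (hs y hy.2).trans (hφ hy.1)⟩

theorem ld_id (x : M) : IsLocalDiffeomorphAt I I ∞ (id : M → M) x :=
  ⟨pdRefl I M, mem_univ _, fun _ _ => rfl⟩

theorem ld_comp {f : M → N} {g : N → P} (hg : IsLocalDiffeomorph J K ∞ g)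
    (hf : IsLocalDiffeomorph I J ∞ f) : IsLocalDiffeomorph I K ∞ (g ∘ f) :=
  fun x => (hf x).comp K P (hg (f x))

/-- smoothness at `f x` is tested after composing with a local diffeomorphism -/
theorem contMDiffAt_of_comp {f : M → N} {x : M} (hf : IsLocalDiffeomorphAt I J ∞ f x) {g : N → P}
    (h : ContMDiffAt I K ∞ (g ∘ f) x) : ContMDiffAt J K ∞ g (f x) := by
  have h1 : ContMDiffAt I K ∞ (g ∘ f) (hf.localInverse (f x)) := by
    rwa [hf.localInverse_left_inv hf.localInverse_mem_target]
  refine (h1.comp (f x) hf.localInverse_contMDiffAt).congr_of_eventuallyEq ?_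
  filter_upwards [hf.localInverse_eventuallyEq_right] with y hy
  exact (congrArg g hy).symm

theorem ld_of_comp {f : M → N} {x : M} (hf : IsLocalDiffeomorphAt I J ∞ f x) {g : N → P}
    (h : IsLocalDiffeomorphAt I K ∞ (g ∘ f) x) : IsLocalDiffeomorphAt J K ∞ g (f x) := by
  have h1 : IsLocalDiffeomorphAt I K ∞ (g ∘ f) (hf.localInverse (f x)) := by
    rwa [hf.localInverse_left_inv hf.localInverse_mem_target]
  refine ld_congr (hf.localInverse_isLocalDiffeomorphAt.comp K P h1) ?_
  filter_upwards [hf.localInverse_eventuallyEq_right] with y hy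
  exact (congrArg g hy).symm

/-- smoothness of a map INTO the source of a local diffeomorphism -/
theorem contMDiffAt_of_comp_left {f : M → N} {x : M} {g : N → P}
    (hg : IsLocalDiffeomorphAt J K ∞ g (f x)) (hc : ContinuousAt f x)
    (h : ContMDiffAt I K ∞ (g ∘ f) x) : ContMDiffAt I J ∞ f x := by
  refine (hg.localInverse_contMDiffAt.comp x h).congr_of_eventuallyEq ?_
  filter_upwards [hc.eventually hg.localInverse_eventuallyEq_left] with y hy
  exact hy.symm

theorem ld_of_comp_left {f : M → N} {x : M} {g : N → P}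
    (hg : IsLocalDiffeomorphAt J K ∞ g (f x)) (hc : ContinuousAt f x)
    (h : IsLocalDiffeomorphAt I K ∞ (g ∘ f) x) : IsLocalDiffeomorphAt I J ∞ f x := by
  refine ld_congr (h.comp J N hg.localInverse_isLocalDiffeomorphAt) ?_
  filter_upwards [hc.eventually hg.localInverse_eventuallyEq_left] with y hy
  exact hy.symm

/-- a smooth map with a smooth local two-sided inverse is a local diffeomorphism -/
theorem ld_of_inverse {f : M → N} {g : N → M} {x : M} {s : Set M} {t : Set N} (hs : IsOpen s)
    (ht : IsOpen t) (hx : x ∈ s) (hf : ContMDiffOn I J ∞ f s) (hg : ContMDiffOn J I ∞ g t)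
    (hst : MapsTo f s t) (hts : MapsTo g t s) (hl : ∀ y ∈ s, g (f y) = y)
    (hr : ∀ y ∈ t, f (g y) = y) : IsLocalDiffeomorphAt I J ∞ f x :=
  ⟨{ toFun := f, invFun := g, source := s, target := t, map_source' := hst, map_target' := hts,
     left_inv' := hl, right_inv' := hr, open_source := hs, open_target := ht,
     contMDiffOn_toFun := hf, contMDiffOn_invFun := hg }, hx, fun _ _ => rfl⟩

/-- an injective local diffeomorphism is an open embedding -/
theorem ld_isOpenEmbedding {f : M → N} (hf : IsLocalDiffeomorph I J ∞ f) (hi : Injective f) :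
    IsOpenEmbedding f := hf.isLocalHomeomorph.isOpenEmbedding_of_injective hi

/-- an injective local diffeomorphism as a partial diffeomorphism `univ → range f` -/
def pdOfInj [Nonempty M] {f : M → N} (hf : IsLocalDiffeomorph I J ∞ f) (hi : Injective f) :
    PartialDiffeomorph I J M N ∞ :=
  pdOf ((ld_isOpenEmbedding hf hi).toOpenPartialHomeomorph f) hf.contMDiff.contMDiffOn (by
    intro y hy
    simp only [IsOpenEmbedding.toOpenPartialHomeomorph_target] at hy
    obtain ⟨x, rfl⟩ := hy
    refine (contMDiffAt_of_comp (hf x) ?_).contMDiffWithinAt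
    refine contMDiffAt_id.congr_of_eventuallyEq (Eventually.of_forall fun z => ?_)
    exact (ld_isOpenEmbedding hf hi).toOpenPartialHomeomorph_left_inv)

@[simp] theorem pdOfInj_source [Nonempty M] {f : M → N} (hf : IsLocalDiffeomorph I J ∞ f)
    (hi : Injective f) : (pdOfInj hf hi).source = univ := rfl

@[simp] theorem pdOfInj_target [Nonempty M] {f : M → N} (hf : IsLocalDiffeomorph I J ∞ f)
    (hi : Injective f) : (pdOfInj hf hi).target = range f :=
  IsOpenEmbedding.toOpenPartialHomeomorph_target _ (ld_isOpenEmbedding hf hi)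

@[simp] theorem pdOfInj_apply [Nonempty M] {f : M → N} (hf : IsLocalDiffeomorph I J ∞ f)
    (hi : Injective f) (x : M) : pdOfInj hf hi x = f x := rfl

@[simp] theorem pdOfInj_symm_apply [Nonempty M] {f : M → N} (hf : IsLocalDiffeomorph I J ∞ f)
    (hi : Injective f) (x : M) : (pdOfInj hf hi).symm (f x) = x :=
  (pdOfInj hf hi).left_inv (mem_univ x)

/-- two maps into one space differ locally by partial diffeomorphisms -/
def Compat (I : ModelWithCorners ℝ E H) (J : ModelWithCorners ℝ E' H') {X : Type*} (f : M → X)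
    (g : N → X) : Prop :=
  ∀ p q, f p = g q → ∃ φ : PartialDiffeomorph I J M N ∞,
    p ∈ φ.source ∧ φ p = q ∧ ∀ z ∈ φ.source, g (φ z) = f z

theorem Compat.symm {X : Type*} {f : M → X} {g : N → X} (h : Compat I J f g) : Compat J I g f := by
  intro q p e
  obtain ⟨φ, hp, hq, hφ⟩ := h p q e.symm
  refine ⟨φ.symm, hq ▸ φ.map_source hp, hq ▸ φ.left_inv hp, fun z hz => ?_⟩
  have h1 := hφ _ (φ.map_target hz)
  rw [show φ (φ.toPartialEquiv.symm z) = z from φ.right_inv hz] at h1
  exact h1.symm

theorem compat_of_injective {X : Type*} {f : M → X} (hf : Injective f) : Compat I I f f :=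
  fun _ _ e => ⟨pdRefl I M, mem_univ _, hf e, fun _ _ => rfl⟩

end LD

section Charts

variable {V : Type*} [NormedAddCommGroup V] [NormedSpace ℝ V]
  {E : Type*} [NormedAddCommGroup E] [NormedSpace ℝ E] {H : Type*} [TopologicalSpace H]
  {I : ModelWithCorners ℝ E H} [I.Boundaryless] {M : Type*} [TopologicalSpace M] [ChartedSpace H M]
  [IsManifold I ∞ M]
  {E' : Type*} [NormedAddCommGroup E'] [NormedSpace ℝ E'] {H' : Type*} [TopologicalSpace H']
  {J : ModelWithCorners ℝ E' H'} [J.Boundaryless] {N : Type*} [TopologicalSpace N] [ChartedSpace H' N]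
  [IsManifold J ∞ N] {X : Type*} [TopologicalSpace X]

variable (I) in
/-- the extended chart as a partial diffeomorphism -/
def chE (x : M) : PartialDiffeomorph I 𝓘(ℝ, E) M E ∞ where
  toPartialEquiv := extChartAt I x
  open_source := isOpen_extChartAt_source x
  open_target := isOpen_extChartAt_target x
  contMDiffOn_toFun := by
    rw [extChartAt_source]
    exact contMDiffOn_extChartAt
  contMDiffOn_invFun := contMDiffOn_extChartAt_symm x

variable (I) in
/-- the chart at `x` with values in `V` -/
def chL (L : E ≃L[ℝ] V) (x : M) : PartialDiffeomorph I 𝓘(ℝ, V) M V ∞ :=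
  (chE I x).trans L.toDiffeomorph.toPartialDiffeomorph

theorem mem_chL (L : E ≃L[ℝ] V) (x : M) : x ∈ (chL I L x).source :=
  ⟨mem_extChartAt_source (I := I) x, mem_univ _⟩

variable (I) in
/-- the chart of `X` at `f p` defined by a local homeomorphism `f : M → X` -/
def chF (L : E ≃L[ℝ] V) {f : M → X} (hf : IsLocalHomeomorph f) (p : M) :
    OpenPartialHomeomorph X V :=
  (hf.localInverseAt p).trans (chL I L p).toOpenPartialHomeomorph

theorem mem_chF (L : E ≃L[ℝ] V) {f : M → X} (hf : IsLocalHomeomorph f) (p : M) :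
    f p ∈ (chF I L hf p).source := by
  refine ⟨hf.apply_self_mem_localInverseAt_source, ?_⟩
  show hf.localInverseAt p (f p) ∈ (chL I L p).source
  rw [hf.localInverseAt_apply_self]
  exact mem_chL L p

theorem chF_symm (L : E ≃L[ℝ] V) {f : M → X} (hf : IsLocalHomeomorph f) (p : M) (v : V) :
    (chF I L hf p).symm v = f ((chL I L p).symm v) := by
  show (hf.localInverseAt p).symm _ = _
  rw [hf.localInverseAt_symm]
  rfl

/-- a chart of `g` composed with a compatible `f` is a local diffeomorphism -/
theorem Compat.ld_chF (L' : E' ≃L[ℝ] V) {f : M → X} {g : N → X} (hg : IsLocalHomeomorph g)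
    (h : Compat I J f g) (q : N) {p : M} (hp : f p ∈ (chF J L' hg q).source) :
    IsLocalDiffeomorphAt I 𝓘(ℝ, V) ∞ (chF J L' hg q ∘ f) p := by
  set b := hg.localInverseAt q with hb
  have h1 : f p ∈ b.source := hp.1
  have h2 : b (f p) ∈ (chL J L' q).source := hp.2
  obtain ⟨φ, hφ, e, hz⟩ := h p (b (f p)) (hg.apply_localInverseAt_of_mem h1).symm
  have h3 : IsLocalDiffeomorphAt J 𝓘(ℝ, V) ∞ (chL J L' q) (φ p) :=
    (chL J L' q).isLocalDiffeomorphAt _ _ _ (e ▸ h2)
  refine ld_congr ((φ.isLocalDiffeomorphAt _ _ _ hφ).comp _ _ h3) ?_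
  have c : ContinuousAt φ p := φ.contMDiffOn_toFun.continuousOn.continuousAt (φ.open_source.mem_nhds hφ)
  have h4 : ∀ᶠ z in 𝓝 p, φ z ∈ b.target :=
    c.eventually (b.open_target.mem_nhds (e ▸ b.map_source h1))
  filter_upwards [h4, φ.open_source.mem_nhds hφ] with z z1 z2
  show chL J L' q (b (f z)) = chL J L' q (φ z)
  rw [← hz z z2]
  congr 1
  have := b.right_inv z1
  rwa [hb, hg.localInverseAt_symm] at this

theorem Compat.contDiffOn_chF (L : E ≃L[ℝ] V) (L' : E' ≃L[ℝ] V) {f : M → X} {g : N → X}
    (hf : IsLocalHomeomorph f) (hg : IsLocalHomeomorph g) (h : Compat I J f g) (p : M) (q : N) :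
    ContDiffOn ℝ ∞ ((chF I L hf p).symm.trans (chF J L' hg q))
      ((chF I L hf p).symm.trans (chF J L' hg q)).source := by
  intro v hv
  have h1 : v ∈ (chL I L p).target := hv.1.1
  have h2 : f ((chL I L p).symm v) ∈ (chF J L' hg q).source := by
    rw [← chF_symm L hf]
    exact hv.2
  have h3 := (h.ld_chF L' hg q h2).contMDiffAt.comp v
    ((chL I L p).contMDiffOn_invFun.contMDiffAt ((chL I L p).open_target.mem_nhds h1))
  refine (contMDiffAt_iff_contDiffAt.1 h3).contDiffWithinAt.congr (fun w _ => ?_) ?_ <;>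
  · show chF J L' hg q ((chF I L hf p).symm _) = _
    rw [chF_symm L hf]
    rfl

end Charts

/-- an atlas on a topological space -/
structure Atl (V : Type*) [NormedAddCommGroup V] [NormedSpace ℝ V] (X : Type*) [TopologicalSpace X]
    (ι : Type*) where
  e : ι → OpenPartialHomeomorph X V
  cover : ∀ x, ∃ i, x ∈ (e i).source
  sm : ∀ i j, ContDiffOn ℝ ∞ ((e i).symm.trans (e j)) ((e i).symm.trans (e j)).source

namespace Atl

variable {V : Type*} [NormedAddCommGroup V] [NormedSpace ℝ V] {X : Type*} [TopologicalSpace X]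
  {ι : Type*} (A : Atl V X ι)

/-- the charted space of an atlas -/
@[reducible] def cs : ChartedSpace V X where
  atlas := range A.e
  chartAt x := A.e (A.cover x).choose
  mem_chart_source x := (A.cover x).choose_spec
  chart_mem_atlas _ := ⟨_, rfl⟩

theorem mf : letI := A.cs; IsManifold 𝓘(ℝ, V) ∞ X := by
  letI := A.cs
  apply isManifold_of_contDiffOn
  rintro _ _ ⟨i, rfl⟩ ⟨j, rfl⟩
  simpa only [modelWithCornersSelf_coe, modelWithCornersSelf_coe_symm, id_comp, comp_id,
    preimage_id, range_id, inter_univ] using A.sm i j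

theorem ld_e (i : ι) {x : X} (hx : x ∈ (A.e i).source) :
    letI := A.cs; IsLocalDiffeomorphAt 𝓘(ℝ, V) 𝓘(ℝ, V) ∞ (A.e i) x := by
  letI := A.cs
  haveI := A.mf
  have hm : A.e i ∈ IsManifold.maximalAtlas 𝓘(ℝ, V) ∞ X := IsManifold.subset_maximalAtlas ⟨i, rfl⟩
  exact ⟨pdOf (A.e i) (contMDiffOn_of_mem_maximalAtlas hm) (contMDiffOn_symm_of_mem_maximalAtlas hm),
    hx, fun _ _ => rfl⟩

/-- a continuous map into `X` that is a local diffeomorphism in ONE chart of the atlas -/
theorem ld_of_chart {E : Type*} [NormedAddCommGroup E] [NormedSpace ℝ E] {H : Type*}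
    [TopologicalSpace H] {I : ModelWithCorners ℝ E H} {M : Type*} [TopologicalSpace M]
    [ChartedSpace H M] {f : M → X} {p : M} (hc : ContinuousAt f p) (i : ι)
    (hi : f p ∈ (A.e i).source) (h : IsLocalDiffeomorphAt I 𝓘(ℝ, V) ∞ (A.e i ∘ f) p) :
    letI := A.cs; IsLocalDiffeomorphAt I 𝓘(ℝ, V) ∞ f p := by
  letI := A.cs
  exact ld_of_comp_left (A.ld_e i hi) hc h

end Atl

end Crest.Agent.X212.Glue52
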